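import Vale.Agent.P281.H495.DC.Desc
import Vale.Agent.P281.H76.Sing
import Vale.Agent.P281.H389.TGB.Bound
import Vale.Agent.P281.H176.TGB.CardB
import Vale.Agent.P281.H225.TGB.ExtR
import Vale.Agent.P281.H180.TG.Pow
import Vale.Agent.P281.H485.Gen.Har
import Vale.Agent.P281.H713.TZ.S

/-!
# P281, T-DC (helper495): descent of the Kodaira dimension by generically finite maps

`κ(X₁, K_(X₁) + Δ₁) ≤ κ(X, K_X + Δ)` if `u : X₁ → X` is onto, `dim X₁ = dim X`, and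
`K_(X₁) + Δ₁ ≤ u^*(K_X + Δ)` over the complement of an analytic set of codimension two of `X`:
T-GB for `Y = Y₁ = {pt}`.
-/

open scoped Manifold ContDiff Topology
open Set Filter Metric Module

noncomputable section

namespace Vale.Agent.P281.H495.DC

open Vale.Agent.P281 Vale.Agent.P281.MF Vale.Agent.P281.ISO
open Vale.Agent.P281.H713 Vale.Agent.P281.H969.TL Vale.Agent.P281.H969.TG Vale.Agent.P281.H969.TGB
open Vale.Agent.P281.H64.TU (Tame KTame TameOK RelFormT HasFormsT)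
open Vale.Agent.P281.H64.Gen (IsSmallSet IsSmall2 IsAnalyticSet)
open Vale.Agent.P272.K (Chart IsHermitian Cm At)

set_option linter.all false

/-- the map to the point -/
abbrev pt (X : Type) : X → Cm 0 := fun _ => 0

/-- the metric zero (no slice is tame) -/
abbrev w0 (n : ℕ) (X : Type) [TopologicalSpace X] : Chart n X → Cm n → Matrix (Fin n) (Fin n) ℂ :=
  fun _ _ => 0

theorem not_tame {n d : ℕ} {X : Type} [TopologicalSpace X] [ChartedSpace (Cm n) X] (hd : 0 < d)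
    {K r : ℝ} {q : Cm d → X} {v₀ : Cm d} (hr : 0 < r) : ¬ KTame (w0 n X) K q v₀ r := by
  intro h
  have h1 := h v₀ (mem_ball_self hr) (chartAt (Cm n) (q v₀))
    ⟨chart_mem_atlas _ _, mem_chart_source _ _⟩ (fun _ => 1)
  have h2 : (0 : ℝ) < ‖(fun _ => 1 : Cm d)‖ ^ 2 := by
    have : Nonempty (Fin d) := ⟨⟨0, hd⟩⟩
    rw [pi_norm_const]
    norm_num
  simp [w0] at h1
  rw [h1] at h2
  simp at h2

section
variable {d : ℕ} {X : Type} [TopologicalSpace X] [ChartedSpace (Cm (0 + d)) X]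
  [IsManifold 𝓘(ℂ, Cm (0 + d)) ω X]

theorem jac_zero {Z : Type} [TopologicalSpace Z] [ChartedSpace (Cm 0) Z] (φ : Z → Cm 0) (z : Z) :
    jac (Cm 0) φ z = 1 := by
  have h1 : (mfderiv 𝓘(ℂ, Cm 0) 𝓘(ℂ, Cm 0) φ z : Cm 0 →L[ℂ] Cm 0) =
      ContinuousLinearMap.id ℂ (Cm 0) := @Subsingleton.elim (Cm 0 →L[ℂ] Cm 0) _ _ _
  show ContinuousLinearMap.det (mfderiv 𝓘(ℂ, Cm 0) 𝓘(ℂ, Cm 0) φ z : Cm 0 →L[ℂ] Cm 0) = 1
  rw [h1]
  exact LinearMap.det_id

/-- **(A)** a section is a relative form over the point -/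
theorem rel_of_section (hd : 0 < d) {m : ℕ} {k : Set X → ℕ} {s : X → ℂ}
    (hs : J.IsSection (Cm (0 + d)) (fun (D : Set X) x g => IsLocalEq (Cm (0 + d)) D g x) m k s)
    (e₀ : Cm (0 + d) ≃L[ℂ] (Cm 0 × Cm d)) :
    RelFormT (KTame (w0 (0 + d) X)) (pt X) ∅ e₀ m ∅ k s where
  hol := by
    intro x₀ x y₀ _ hx _ T e hT he
    obtain ⟨T', g, a, hT', hg, ha, hev⟩ := hs x
    obtain ⟨w, hw, hw0, hwe⟩ := H76.S.prod_unit hT hT' he hg
    obtain ⟨R, hR, hRe⟩ := H76.jac_local (φ := (chartAt (Cm (0 + d)) x₀ : X → Cm (0 + d)))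
      (HolV.chart hx)
    have hR0 : R x ≠ 0 := by
      intro h0
      have h1 := hRe.self_of_nhds
      rw [h0, zero_mul] at h1
      exact jac_chart_ne_zero hx h1
    refine ⟨fun z => a z * w z / R z ^ m,
      HolV.div (HolV.mul ha hw) (hR.pow m) (pow_ne_zero _ hR0), ?_⟩
    filter_upwards [hev, hwe, hRe, hR.continuousAt.eventually_ne hR0] with z h1 h2 h3 h4 _ h5
    rw [jac_zero, one_pow, one_mul, h3, mul_pow]
    have h6 : ∏ i ∈ T', g i z ^ k i ≠ 0 := fun h => h5 (by rw [h2, h, mul_zero])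
    have h7 : s z * ∏ i ∈ T', g i z ^ k i = a z * jac (Cm (0 + d)) (chartAt (Cm (0 + d)) x) z ^ m :=
      h1 h6
    rw [h2]
    have h8 : R z ^ m ≠ 0 := pow_ne_zero _ h4
    field_simp
    linear_combination w z * h7
  bound := by
    intro r K hr hK
    exact ⟨0, fun v₀ Q _ _ _ _ _ h => absurd h (not_tame hd hr)⟩

/-- **(C)** a relative form over the point is a section -/
theorem section_of_rel {𝒯 : Tame (Cm d) X} {e₀ : Cm (0 + d) ≃L[ℂ] (Cm 0 × Cm d)} {N : ℕ}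
    {Δ : Set X → ℝ} {κ : Set X → ℕ} {Θ : X → ℂ} (hΔ : J.IsSNC (Cm (0 + d)) Δ) (hN : 0 < N)
    (hκ : ∀ D, (κ D : ℝ) = N * Δ D)
    (h : RelFormT 𝒯 (pt X) ∅ e₀ N {D | Δ D ≠ 0} κ Θ) :
    J.IsSection (Cm (0 + d)) (fun (D : Set X) x g => IsLocalEq (Cm (0 + d)) D g x) N κ Θ := by
  classical
  have h0 : ∀ D, κ D ≠ 0 ↔ Δ D ≠ 0 := by
    intro D
    have h1 := hκ D
    have hN' : (N : ℝ) ≠ 0 := by exact_mod_cast hN.ne'
    constructor
    · intro h2 h3
      rw [h3, mul_zero] at h1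
      exact h2 (by exact_mod_cast h1)
    · intro h2 h3
      rw [h3, Nat.cast_zero] at h1
      exact h2 ((mul_eq_zero.1 h1.symm).resolve_left hN')
  intro z₀
  have hex : ∀ D, ∃ g, D ∈ hΔ.1.toFinset → IsLocalEq (Cm (0 + d)) D g z₀ := by
    intro D
    by_cases hD : D ∈ hΔ.1.toFinset
    · obtain ⟨g, hg⟩ := (hΔ.2.1 D (by simpa using hD)).2.1 z₀
      exact ⟨g, fun _ => hg⟩
    · exact ⟨fun _ => 0, fun h => absurd h hD⟩
  choose g hg using hex
  obtain ⟨H, hH, hHe⟩ := h.hol z₀ z₀ 0 (by simp) (mem_chart_source _ _) (mem_chart_source _ _)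
    hΔ.1.toFinset g (fun D hD => by simpa using (h0 D).1 hD) hg
  refine ⟨hΔ.1.toFinset, g, H, fun D hD => by simpa using (h0 D).1 hD, hg, hH, ?_⟩
  have hmem : ∀ᶠ z in 𝓝 z₀, ∀ D ∈ hΔ.1.toFinset, (z ∈ D → g D z = 0) := by
    rw [Filter.eventually_all_finset]
    intro D hD
    filter_upwards [(hg D hD).eventually] with z hz hzD
    exact hz.mem_iff.1 hzD
  filter_upwards [hHe, hmem] with z h1 h2 h3
  have h4 : ∀ D ∈ {D | Δ D ≠ 0}, z ∉ D := by
    intro D hD hzD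
    have hD' : D ∈ hΔ.1.toFinset := by simpa using hD
    have h5 := Finset.prod_ne_zero_iff.1 h3 D hD'
    rw [h2 D hD' hzD, zero_pow ((h0 D).2 hD)] at h5
    exact h5 rfl
  have h5 := h1 h4 h3
  rw [jac_zero, one_pow, one_mul] at h5
  exact h5

end

end Vale.Agent.P281.H495.DC
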