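import Vale.Agent.P281.H364.MM.Main
import Vale.Agent.P281.H456.TG.VSmall
import Vale.Agent.P281.H413.TZ.Gen
import Vale.Agent.P281.H364.Gen.Crit
import Vale.Agent.P281.H150.Gen.Img
import Vale.Agent.P281.H740.TW.TowerQ1
import Vale.Agent.P281.H495.Cov.Base

/-!
# P281, T-DC (helper495): the very general fibres in a generically finite square

The proofs follow `H364/MM/Kod2` and `H364/MM/Main` (helper364).
-/

open scoped Manifold ContDiff Topology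
open Set Filter Metric Vale.Agent.P281 Vale.Agent.P281.H713
open Vale.Agent.P281.H64 (Cm IsProperFibration)
open Vale.Agent.P281.H64.Gen (IsSmallSet)
open Vale.Agent.P281.H64.Thin (IsThinSet)
open Vale.Agent.P281.H511.Surf (IsFibration)
open Vale.Agent.P281.H740 (eqF exists_retr mfderiv_chart_self genpos_n thin_pre surj_fib exists_level)

set_option linter.all false

noncomputable section

namespace Vale.Agent.P281.H495.DC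

open Vale.Agent.P281.H713.TZ
open Vale.Agent.P281.H364.MM

section Kod

variable {p d : ℕ} {X Y X₁ Y₁ F F₁ : Type}
  [TopologicalSpace X] [ChartedSpace (Cm (p + d)) X] [IsManifold 𝓘(ℂ, Cm (p + d)) ω X]
  [TopologicalSpace Y] [ChartedSpace (Cm p) Y] [IsManifold 𝓘(ℂ, Cm p) ω Y]
  [TopologicalSpace X₁] [ChartedSpace (Cm (p + d)) X₁] [IsManifold 𝓘(ℂ, Cm (p + d)) ω X₁]
  [TopologicalSpace Y₁] [ChartedSpace (Cm p) Y₁] [IsManifold 𝓘(ℂ, Cm p) ω Y₁]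
  [TopologicalSpace F] [ChartedSpace (Cm d) F] [IsManifold 𝓘(ℂ, Cm d) ω F]
  [TopologicalSpace F₁] [ChartedSpace (Cm d) F₁] [IsManifold 𝓘(ℂ, Cm d) ω F₁]
  {f : X → Y} {f₁ : X₁ → Y₁} {u : X₁ → X} {v : Y₁ → Y} {i : F → X} {i₁ : F₁ → X₁}
  {ν : F₁ → F} {y : Y} {y₁ : Y₁}

/-- `j` independent quotients of sections on `V` -/
def Dat (p d : ℕ) {X F : Type} [TopologicalSpace X] [ChartedSpace (Cm (p + d)) X]
    [TopologicalSpace F] [ChartedSpace (Cm d) F] (i : F → X) (Δ : Set X → ℝ) (j : ℕ)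
    (V : Set F) : Prop :=
  ∃ (m : ℕ) (k : Set X → ℕ) (s : ℕ → F → ℂ), 0 < m ∧ (∀ D, (k D : ℝ) = m * Δ D) ∧
    (∀ b, J.IsSection (Cm d) (eqF (p + d) i) m k (s b)) ∧ ∀ w ∈ V, s 0 w ≠ 0 ∧
    (Function.Surjective fun (ξ : Cm d) (b : Fin j) =>
      J.dif (Cm d) (fun w => s (b + 1) w / s 0 w) w ξ) ∧
    ∀ b : Fin j, s (b + 1) w / s 0 w ≠ 0

omit [IsManifold 𝓘(ℂ, Cm (p + d)) ω X] in
theorem exists_dat [IsManifold 𝓘(ℂ, Cm (p + d)) ω X] [Nonempty F]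
    (hi : ContMDiff 𝓘(ℂ, Cm d) 𝓘(ℂ, Cm (p + d)) ω i) {Δ : Set X → ℝ}
    (hΔ : {D | Δ D ≠ 0}.Finite) :
    ∃ V : Set F, IsOpen V ∧ V.Nonempty ∧ (S.kodR (Cm (p + d)) (Cm d) i Δ = ⊥ ∨
      ∃ j : ℕ, Dat p d i Δ j V ∧
        S.kodR (Cm (p + d)) (Cm d) i Δ ≤ ((j : ℕ∞) : WithBot ℕ∞)) := by
  classical
  let P : ℕ → Prop := fun j => ∃ V : Set F, IsOpen V ∧ V.Nonempty ∧ Dat p d i Δ j V
  have hall : ∀ N : WithBot ℕ∞, (∀ j : ℕ, P j → ((j : ℕ∞) : WithBot ℕ∞) ≤ N) →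
      S.kodR (Cm (p + d)) (Cm d) i Δ ≤ N := by
    intro N hN
    unfold S.kodR J.kod
    refine iSup₂_le ?_
    rintro j ⟨m, k, s, z, hm, hk, hs, hz, hs0, hsu⟩
    refine hN j ?_
    have hop := H740.kod_open hi hΔ hk hs hz hs0 hsu
    obtain ⟨U, hU1, hU2, hU3⟩ := eventually_nhds_iff.1 hop
    obtain ⟨V, hVU, hVo, hVne, hVu⟩ := exists_ne_all (d := d) (Finset.univ : Finset (Fin j))
      (u := fun b w => s (b + 1) w / s 0 w) (V := U) hU2 ⟨z, hU3⟩ (by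
        intro b _ t ht h0
        obtain ⟨ξ, hξ⟩ := (hU1 t ht).2.2 (Pi.single b 1)
        have h1 := congrFun hξ b
        simp only [Pi.single_eq_same] at h1
        rw [h0] at h1
        exact zero_ne_one h1)
    exact ⟨V, hVo, hVne, m, k, s, hm, hk, hs, fun w hw => ⟨(hU1 w (hVU hw)).2.1,
      (hU1 w (hVU hw)).2.2, fun b => hVu b (Finset.mem_univ b) w hw⟩⟩
  by_cases h : ∃ j, P j
  · have hle : ∀ j, P j → j ≤ d := by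
      rintro j ⟨V, -, ⟨w, hw⟩, m, k, s, -, -, -, hs⟩
      obtain ⟨-, h3, -⟩ := hs w hw
      let L : Cm d →ₗ[ℂ] (Fin j → ℂ) := LinearMap.pi fun b : Fin j =>
        ((J.dif (Cm d) (fun w => s (b + 1) w / s 0 w) w : Cm d →L[ℂ] ℂ) : Cm d →ₗ[ℂ] ℂ)
      have h5 : Function.Surjective L := h3
      have h6 := LinearMap.finrank_le_finrank_of_surjective h5
      simpa using h6
    obtain ⟨j₀, hj₀⟩ := h
    have hmax : P (Nat.findGreatest P d) := Nat.findGreatest_spec (P := P) (hle j₀ hj₀) hj₀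
    obtain ⟨V, hVo, hVne, hV⟩ := hmax
    refine ⟨V, hVo, hVne, Or.inr ⟨_, hV, hall _ fun j hj => ?_⟩⟩
    have h7 : j ≤ Nat.findGreatest P d := Nat.le_findGreatest (hle j hj) hj
    exact_mod_cast h7
  · refine ⟨univ, isOpen_univ, univ_nonempty, Or.inl (le_bot_iff.1 (hall _ fun j hj => ?_))⟩
    exact absurd ⟨j, hj⟩ h

/-- **`j ≤ κ(F₁, K + Δ₁|F₁)`** -/
theorem kodR_pull_at (hgen : GenPart) (hf : ContMDiff 𝓘(ℂ, Cm (p + d)) 𝓘(ℂ, Cm p) ω f)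
    (hf₁ : ContMDiff 𝓘(ℂ, Cm (p + d)) 𝓘(ℂ, Cm p) ω f₁)
    (hu : ContMDiff 𝓘(ℂ, Cm (p + d)) 𝓘(ℂ, Cm (p + d)) ω u)
    (hv : ContMDiff 𝓘(ℂ, Cm p) 𝓘(ℂ, Cm p) ω v)
    (hi : ContMDiff 𝓘(ℂ, Cm d) 𝓘(ℂ, Cm (p + d)) ω i)
    (hi₁ : ContMDiff 𝓘(ℂ, Cm d) 𝓘(ℂ, Cm (p + d)) ω i₁)
    (hν : ContMDiff 𝓘(ℂ, Cm d) 𝓘(ℂ, Cm d) ω ν)
    (hcomm : ∀ x, f (u x) = v (f₁ x)) (hiν : ∀ s, i (ν s) = u (i₁ s))
    (hfi : ∀ t, f (i t) = y) (hfi₁ : ∀ s, f₁ (i₁ s) = y₁)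
    (hsub : ∀ t, Function.Surjective (mfderiv 𝓘(ℂ, Cm (p + d)) 𝓘(ℂ, Cm p) f (i t)))
    (hsub₁ : ∀ s, Function.Surjective (mfderiv 𝓘(ℂ, Cm (p + d)) 𝓘(ℂ, Cm p) f₁ (i₁ s)))
    (himm : ∀ t, Function.Injective (mfderiv 𝓘(ℂ, Cm d) 𝓘(ℂ, Cm (p + d)) i t))
    (himm₁ : ∀ s, Function.Injective (mfderiv 𝓘(ℂ, Cm d) 𝓘(ℂ, Cm (p + d)) i₁ s))
    (hinj : Function.Injective i) (hB : (dM (Cm p) (Cm p) v y₁).det ≠ 0)
    {Δ : Set X → ℝ} {Δ₁ : Set X₁ → ℝ} (hΔ : J.IsSNC (Cm (p + d)) Δ)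
    (hΔ₁ : J.IsSNC (Cm (p + d)) Δ₁) (hmor : S.OrbMor (Cm (p + d)) (Cm (p + d)) u Δ₁ Δ)
    (hd : Dense {z | ¬ ∃ D, Δ D ≠ 0 ∧ u z ∈ D})
    (hΩ : Dense {s | ¬ ∃ D, Δ D ≠ 0 ∧ u (i₁ s) ∈ D})
    {j : ℕ} {V : Set F} (hD : Dat p d i Δ j V) {s₁ : F₁} (hs₁V : ν s₁ ∈ V)
    (hdet : (dM (Cm d) (Cm d) ν s₁).det ≠ 0) (hoff : ∀ D, Δ D ≠ 0 → u (i₁ s₁) ∉ D)
    (hoff₁ : ∀ D, Δ₁ D ≠ 0 → i₁ s₁ ∉ D) :
    ((j : ℕ∞) : WithBot ℕ∞) ≤ S.kodR (Cm (p + d)) (Cm d) i₁ Δ₁ := by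
  classical
  obtain ⟨m, k, s, hm, hk, hs, hV⟩ := hD
  obtain ⟨q, hq, K', hK', -⟩ := exists_denominator (JB.snc hΔ₁)
  have hmq : 0 < m * q := Nat.mul_pos hm hq
  have hkq : ∀ D, ((k D * q : ℕ) : ℝ) = ((m * q : ℕ) : ℝ) * Δ D := by
    intro D
    push_cast
    rw [hk]
    ring
  have hKq : ∀ D, ((m * K' D : ℕ) : ℝ) = ((m * q : ℕ) : ℝ) * Δ₁ D := by
    intro D
    push_cast
    rw [hK']
    ring
  have hk0 : ∀ D, k D * q ≠ 0 → Δ D ≠ 0 := by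
    intro D hD h0
    have h4 := hkq D
    rw [h0, mul_zero] at h4
    exact hD (by exact_mod_cast h4)
  have hd' : Dense {z | ¬ ∃ D, k D * q ≠ 0 ∧ u z ∈ D} := by
    refine hd.mono ?_
    rintro z hz ⟨D, h1, h2⟩
    exact hz ⟨D, hk0 D h1, h2⟩
  have hΩ' : Dense {s | ¬ ∃ D, k D * q ≠ 0 ∧ u (i₁ s) ∈ D} := by
    refine hΩ.mono ?_
    rintro z hz ⟨D, h1, h2⟩
    exact hz ⟨D, hk0 D h1, h2⟩
  obtain ⟨-, -, hScl⟩ := supp_closed hΔ hkq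
  have hΩo : IsOpen {s | ¬ ∃ D, k D * q ≠ 0 ∧ u (i₁ s) ∈ D} :=
    (hScl.preimage (hu.continuous.comp hi₁.continuous)).isOpen_compl
  have hex : ∀ b, ∃ τ : F₁ → ℂ, (∀ t ∈ {s | ¬ ∃ D, k D * q ≠ 0 ∧ u (i₁ s) ∈ D},
      τ t = s b (ν t) ^ q * (dM (Cm d) (Cm d) ν t).det ^ (m * q)) ∧
      J.IsSection (Cm d) (eqF (p + d) i₁) (m * q) (fun D => m * K' D) τ := fun b =>
    extend_fib hi₁ hΩ' fun s₀ => pull_fib hgen hf hf₁ hu hv hi hi₁ hν hcomm hiν hfi hfi₁ hsub hsub₁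
      himm himm₁ hinj hB hΔ hΔ₁ hmor hmq hkq hKq hd' (sec_pow (hs b) q) s₀
  choose τ hτe hτ using hex
  obtain ⟨hs₁, hsu₁, hVu⟩ := hV (ν s₁) hs₁V
  have hs₁Ω : s₁ ∈ {s | ¬ ∃ D, k D * q ≠ 0 ∧ u (i₁ s) ∈ D} := by
    rintro ⟨D, h1, h2⟩
    exact hoff D (hk0 D h1) h2
  have hzC : ∀ D, m * K' D ≠ 0 → ∃ g, eqF (p + d) i₁ D s₁ g ∧ g s₁ ≠ 0 := by
    intro D hD
    have hΓD : Δ₁ D ≠ 0 := by
      intro h0
      have h1 := hKq D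
      rw [h0, mul_zero] at h1
      exact hD (by exact_mod_cast h1)
    obtain ⟨e, he⟩ := (hΔ₁.2.1 D hΓD).2.1 (i₁ s₁)
    have h1 : eqF (p + d) i₁ D s₁ (fun c => e (i₁ c)) :=
      ⟨e, he, Eventually.of_forall fun _ => rfl⟩
    exact ⟨_, h1, fun h0 => hoff₁ D hΓD (h1.mem.2 h0)⟩
  have hτ0 : τ 0 s₁ ≠ 0 := by
    rw [hτe 0 s₁ hs₁Ω]
    exact mul_ne_zero (pow_ne_zero _ hs₁) (pow_ne_zero _ hdet)
  refine le_iSup₂_of_le j ⟨m * q, fun D => m * K' D, τ, s₁, hmq, hKq, hτ, hzC, hτ0, ?_⟩ le_rfl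
  have hev : ∀ᶠ t in 𝓝 s₁, t ∈ {s | ¬ ∃ D, k D * q ≠ 0 ∧ u (i₁ s) ∈ D} ∧
      (dM (Cm d) (Cm d) ν t).det ≠ 0 := by
    filter_upwards [hΩo.mem_nhds hs₁Ω, det_ev hν hdet] with t h1 h2
    exact ⟨h1, h2⟩
  have hrel : ∀ b : Fin j, (fun t => τ (b + 1) t / τ 0 t) =ᶠ[𝓝 s₁]
      (fun t => (s (b + 1) t / s 0 t) ^ q) ∘ ν := by
    intro b
    filter_upwards [hev] with t ht
    show τ (b + 1) t / τ 0 t = (s (b + 1) (ν t) / s 0 (ν t)) ^ q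
    rw [hτe (b + 1) t ht.1, hτe 0 t ht.1, mul_div_mul_right _ _ (pow_ne_zero _ ht.2), div_pow]
  have hud : ∀ b : Fin j, MDifferentiableAt 𝓘(ℂ, Cm d) 𝓘(ℂ, ℂ) (fun w => s (b + 1) w / s 0 w)
      (ν s₁) := by
    intro b
    by_contra hcon
    obtain ⟨ξ, hξ⟩ := hsu₁ (Pi.single b 1)
    have h1 := congrFun hξ b
    have h2 : J.dif (Cm d) (fun w => s (b + 1) w / s 0 w) (ν s₁) = 0 :=
      mfderiv_zero_of_not_mdifferentiableAt hcon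
    simp only [h2, Pi.single_eq_same] at h1
    exact zero_ne_one h1
  have hνd : MDifferentiableAt 𝓘(ℂ, Cm d) 𝓘(ℂ, Cm d) ν s₁ := (hν s₁).mdifferentiableAt (by simp)
  have hder : ∀ (b : Fin j) (ξ : Cm d),
      J.dif (Cm d) (fun t => τ (b + 1) t / τ 0 t) s₁ ξ =
      (q : ℂ) * (s (b + 1) (ν s₁) / s 0 (ν s₁)) ^ (q - 1) *
        J.dif (Cm d) (fun w => s (b + 1) w / s 0 w) (ν s₁) (dM (Cm d) (Cm d) ν s₁ ξ) := by
    intro b ξ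
    have h3 : MDifferentiableAt 𝓘(ℂ, Cm d) 𝓘(ℂ, ℂ) (fun t => (s (b + 1) t / s 0 t) ^ q) (ν s₁) :=
      MDifferentiableAt.comp (I' := 𝓘(ℂ, ℂ)) (ν s₁) (g := fun x : ℂ => x ^ q)
        (f := fun w => s (b + 1) w / s 0 w) (differentiableAt_pow q).mdifferentiableAt (hud b)
    have h4 : mfderiv 𝓘(ℂ, Cm d) 𝓘(ℂ, ℂ) (fun t => (s (b + 1) t / s 0 t) ^ q) (ν s₁) =
        ((q : ℂ) * (s (b + 1) (ν s₁) / s 0 (ν s₁)) ^ (q - 1)) •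
          J.dif (Cm d) (fun w => s (b + 1) w / s 0 w) (ν s₁) := by
      have h5 := mfderiv_comp (I' := 𝓘(ℂ, ℂ)) (ν s₁) (g := fun x : ℂ => x ^ q)
        (f := fun w => s (b + 1) w / s 0 w) (differentiableAt_pow q).mdifferentiableAt (hud b)
      refine Eq.trans h5 ?_
      rw [mfderiv_eq_fderiv]
      refine ContinuousLinearMap.ext fun v => ?_
      show fderiv ℂ (fun x : ℂ => x ^ q) (s (b + 1) (ν s₁) / s 0 (ν s₁))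
        (J.dif (Cm d) (fun w => s (b + 1) w / s 0 w) (ν s₁) v) = _
      rw [(hasDerivAt_pow q (s (b + 1) (ν s₁) / s 0 (ν s₁))).hasFDerivAt.fderiv]
      show J.dif (Cm d) (fun w => s (b + 1) w / s 0 w) (ν s₁) v *
        ((q : ℂ) * (s (b + 1) (ν s₁) / s 0 (ν s₁)) ^ (q - 1)) = _
      rw [mul_comm]
      rfl
    have h6 : J.dif (Cm d) (fun t => τ (b + 1) t / τ 0 t) s₁ =
        (mfderiv 𝓘(ℂ, Cm d) 𝓘(ℂ, ℂ) (fun t => (s (b + 1) t / s 0 t) ^ q) (ν s₁) :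
          Cm d →L[ℂ] ℂ).comp (dM (Cm d) (Cm d) ν s₁) := by
      have h7 : mfderiv 𝓘(ℂ, Cm d) 𝓘(ℂ, ℂ) (fun t => τ (b + 1) t / τ 0 t) s₁ =
          mfderiv 𝓘(ℂ, Cm d) 𝓘(ℂ, ℂ) ((fun t => (s (b + 1) t / s 0 t) ^ q) ∘ ν) s₁ :=
        (hrel b).mfderiv_eq
      exact h7.trans (mfderiv_comp s₁ h3 hνd)
    rw [h6, h4]
    rfl
  -- surjectivity
  intro w
  have hq0 : (q : ℂ) ≠ 0 := by exact_mod_cast hq.ne'
  obtain ⟨ξ', hξ'⟩ := hsu₁ fun b => w b /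
    ((q : ℂ) * (s (b + 1) (ν s₁) / s 0 (ν s₁)) ^ (q - 1))
  obtain ⟨ξ, hξ⟩ : ∃ ξ, dM (Cm d) (Cm d) ν s₁ ξ = ξ' := by
    have h1 := SA.isUnit_of_det_ne hdet
    have h2 : (dM (Cm d) (Cm d) ν s₁) * Ring.inverse (dM (Cm d) (Cm d) ν s₁) = 1 :=
      Ring.mul_inverse_cancel _ h1
    exact ⟨Ring.inverse (dM (Cm d) (Cm d) ν s₁) ξ', congrArg (fun T : Cm d →L[ℂ] Cm d => T ξ') h2⟩
  refine ⟨ξ, ?_⟩
  funext b
  refine (hder b ξ).trans ?_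
  rw [hξ]
  have h1 := congrFun hξ' b
  have h2 : J.dif (Cm d) (fun w => s (b + 1) w / s 0 w) (ν s₁) ξ' = w b /
    ((q : ℂ) * (s (b + 1) (ν s₁) / s 0 (ν s₁)) ^ (q - 1)) := h1
  rw [h2]
  refine mul_div_cancel₀ _ (mul_ne_zero hq0 (pow_ne_zero _ ?_))
  exact hVu b

end Kod

/-- the critical values of a map onto are small -/
theorem small_crit {n : ℕ} {X Y : Type} [TopologicalSpace X] [ChartedSpace (Cm n) X]
    [TopologicalSpace Y] [ChartedSpace (Cm n) Y] [T2Space X] [CompactSpace X] [ConnectedSpace X]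
    [T2Space Y] [ConnectedSpace Y] [IsManifold 𝓘(ℂ, Cm n) ω X] [IsManifold 𝓘(ℂ, Cm n) ω Y]
    {f : X → Y} (hol : ContMDiff 𝓘(ℂ, Cm n) 𝓘(ℂ, Cm n) ω f) (hon : Function.Surjective f) :
    IsSmallSet (Cm n) (f '' H364.critSet (n := n) (p := n) f) := by
  have hA := H364.critSet_analytic (n := n) (p := n) hol
  have hAc : IsClosed (H364.critSet (n := n) (p := n) f) := H511.Gen.isAnalyticSet_isClosed hA
  obtain ⟨H, hH, hS⟩ := H150.Gen.img n n X Y f (H364.critSet (n := n) (p := n) f) hol hA (by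
    intro m φ hφ v hv hs
    have h1 : MDifferentiableAt 𝓘(ℂ, (Fin m → ℂ)) 𝓘(ℂ, (Fin n → ℂ)) φ v :=
      (hφ v hv).1.mdifferentiableAt (by simp)
    have h2 : MDifferentiableAt 𝓘(ℂ, (Fin n → ℂ)) 𝓘(ℂ, (Fin n → ℂ)) f (φ v) :=
      (hol (φ v)).mdifferentiableAt (by simp)
    have h3 : mfderiv 𝓘(ℂ, (Fin m → ℂ)) 𝓘(ℂ, (Fin n → ℂ)) (fun v => f (φ v)) v =
        (mfderiv 𝓘(ℂ, (Fin n → ℂ)) 𝓘(ℂ, (Fin n → ℂ)) f (φ v)).comp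
          (mfderiv 𝓘(ℂ, (Fin m → ℂ)) 𝓘(ℂ, (Fin n → ℂ)) φ v) := mfderiv_comp v h2 h1
    apply (hφ v hv).2
    intro y
    obtain ⟨ξ, hξ⟩ := hs y
    rw [h3] at hξ
    exact ⟨_, hξ⟩)
  exact ⟨(hAc.isCompact.image hol.continuous).isClosed, H, hH, hS⟩

/-- off the critical values the differential is bijective -/
theorem bij_of {n : ℕ} {X Y : Type} [TopologicalSpace X] [ChartedSpace (Cm n) X]
    [TopologicalSpace Y] [ChartedSpace (Cm n) Y] {f : X → Y} {x : X}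
    (h : f x ∉ f '' H364.critSet (n := n) (p := n) f) :
    Function.Bijective (mfderiv 𝓘(ℂ, Cm n) 𝓘(ℂ, Cm n) f x) := by
  have h1 : Function.Surjective (mfderiv 𝓘(ℂ, Cm n) 𝓘(ℂ, Cm n) f x) := by
    by_contra h1
    exact h ⟨x, h1, rfl⟩
  exact ⟨(LinearMap.injective_iff_surjective (V := Cm n)
    (f := ((dM (Cm n) (Cm n) f x : Cm n →L[ℂ] Cm n) : Cm n →ₗ[ℂ] Cm n))).2 h1, h1⟩

/-- **T-DC, the fibres**: `κ(F, K_F + Δ|F) ≤ κ(F₁, K + Δ₁|F₁)` for the very general fibres `F` of `f`,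
where `F₁` is some very general fibre of `f₁`, in a square `f ∘ u = v ∘ f₁` with `u` onto. -/
theorem fibDom {p d : ℕ} {X Y X₁ Y₁ : Type} [TopologicalSpace X] [ChartedSpace (Cm (p + d)) X]
    [TopologicalSpace Y] [ChartedSpace (Cm p) Y] [TopologicalSpace X₁]
    [ChartedSpace (Cm (p + d)) X₁] [TopologicalSpace Y₁] [ChartedSpace (Cm p) Y₁] {f : X → Y}
    {Δ : Set X → ℝ} {f₁ : X₁ → Y₁} {Δ₁ : Set X₁ → ℝ} (h : IsFibration (Cm (p + d)) (Cm p) f Δ)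
    (h₁ : IsFibration (Cm (p + d)) (Cm p) f₁ Δ₁) {u : X₁ → X} {v : Y₁ → Y}
    (hu' : ContMDiff 𝓘(ℂ, Cm (p + d)) 𝓘(ℂ, Cm (p + d)) ω u)
    (hv' : ContMDiff 𝓘(ℂ, Cm p) 𝓘(ℂ, Cm p) ω v) (hcomm : ∀ x, f (u x) = v (f₁ x))
    (hus : Function.Surjective u) (hmor : S.OrbMor (Cm (p + d)) (Cm (p + d)) u Δ₁ Δ)
    {H₁ : ℕ → Set Y₁} (hH₁ : ∀ k, IsThinSet (Cm p) (H₁ k)) :
    ∃ H : ℕ → Set Y, (∀ k, IsThinSet (Cm p) (H k)) ∧ ∀ y, (∀ k, y ∉ H k) →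
      ∀ (F : Type) [TopologicalSpace F] [ChartedSpace (Cm d) F] (i : F → X),
        H511.Surf.IsFibre (Cm (p + d)) (Cm d) f y i → Function.Injective i →
        ∃ (y₁ : Y₁) (F₁ : Type) (_ : TopologicalSpace F₁) (_ : T2Space F₁)
          (_ : ChartedSpace (Cm d) F₁) (i₁ : F₁ → X₁), (∀ k, y₁ ∉ H₁ k) ∧
          H511.Surf.IsFibre (Cm (p + d)) (Cm d) f₁ y₁ i₁ ∧ Function.Injective i₁ ∧
          S.kodR (Cm (p + d)) (Cm d) i Δ ≤ S.kodR (Cm (p + d)) (Cm d) i₁ Δ₁ := by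
  have : T2Space X := h.hausdorff.1
  have : T2Space Y := h.hausdorff.2
  have : T2Space X₁ := h₁.hausdorff.1
  have : T2Space Y₁ := h₁.hausdorff.2
  have : CompactSpace X := h.compact
  have : CompactSpace X₁ := h₁.compact
  have : ConnectedSpace X₁ := h₁.connected
  have : ConnectedSpace X := h.connected
  have : Nonempty X := h.connected.toNonempty
  have : IsManifold 𝓘(ℂ, Cm (p + d)) ω X := h.manifold.1
  have : IsManifold 𝓘(ℂ, Cm p) ω Y := h.manifold.2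
  have : IsManifold 𝓘(ℂ, Cm (p + d)) ω X₁ := h₁.manifold.1
  have : IsManifold 𝓘(ℂ, Cm p) ω Y₁ := h₁.manifold.2
  have hfs : Function.Surjective f := fun y => (h.fibres y).nonempty
  have hfs₁ : Function.Surjective f₁ := fun y => (h₁.fibres y).nonempty
  have : CompactSpace Y := hfs.compactSpace h.hol.continuous
  have : CompactSpace Y₁ := hfs₁.compactSpace h₁.hol.continuous
  have : ConnectedSpace Y := hfs.connectedSpace h.hol.continuous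
  have : ConnectedSpace Y₁ := hfs₁.connectedSpace h₁.hol.continuous
  have hvs : Function.Surjective v := by
    intro y
    obtain ⟨x, hx⟩ := hfs y
    obtain ⟨z, rfl⟩ := hus x
    exact ⟨f₁ z, by rw [← hcomm, hx]⟩
  have hΔ := h.snc
  have hΔ₁ := h₁.snc
  obtain ⟨Sf, hSf, hPf⟩ := (H364.crit H150.Gen.img) (p + d) p X Y f h.hol h.fibres
  obtain ⟨S₁, hS₁, hP₁⟩ := (H364.crit H150.Gen.img) (p + d) p X₁ Y₁ f₁ h₁.hol h₁.fibres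
  obtain ⟨Kf, hKf, hsubf⟩ := hSf.2
  obtain ⟨K₁, hK₁, hsub₁⟩ := hS₁.2
  have hPf' := hPf Sf subset_rfl hSf.1
  have hP₁' := hP₁ S₁ subset_rfl hS₁.1
  -- the thin sets of `X₁`
  have hA₁ : IsThinSet (Cm (p + d)) (⋃₀ {D | Δ₁ D ≠ 0}) :=
    H64.Thin.isThinSet_sUnion hΔ₁.1 fun D hD => hΔ₁.2.1 D hD
  have hA : IsThinSet (Cm (p + d)) (⋃₀ {D | Δ D ≠ 0}) :=
    H64.Thin.isThinSet_sUnion hΔ.1 fun D hD => hΔ.2.1 D hD
  obtain ⟨L, hL, hLsub⟩ := (small_crit hu' hus).2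
  have huo : Cov.IsOnto (p + d) (p + d) u Δ₁ :=
    ⟨⟨inferInstance, inferInstance⟩, inferInstance, inferInstance,
      ⟨inferInstance, inferInstance⟩, hu', hus, hΔ₁⟩
  have hexu := Cov.exists_sub huo
  obtain ⟨H', hH', hgenp⟩ := genpos_n rfl f₁ h₁.hol S₁ hP₁'
    (fun k => ⋃₀ {D | Δ₁ D ≠ 0} ∪ (u ⁻¹' (⋃₀ {D | Δ D ≠ 0}) ∪ u ⁻¹' (L k))) fun k =>
      H64.Thin.IsThinSet.union hA₁ (H64.Thin.IsThinSet.union (thin_pre hu' hexu hA)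
        (thin_pre hu' hexu (hL k)))
  have hSv := small_crit hv' hvs
  have h3 : ∀ k, IsSmallSet (Cm p) (v '' H364.critSet (n := p) (p := p) v ∪
      v '' (H₁ k ∪ (H' k ∪ K₁ k))) := fun k =>
    H456.TG.vSmall p Y₁ Y v _ _ hv' hSv (fun y₁ hy₁ => (bij_of hy₁).1)
      (IsSmallSet.of_thin (H64.Thin.IsThinSet.union (hH₁ k)
        (H64.Thin.IsThinSet.union (hH' k) (hK₁ k))))
  choose G hG hGs using fun k => (h3 k).2
  set H₃ : ℕ → Set Y := fun m => G (Nat.unpair m).1 (Nat.unpair m).2 with hH₃d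
  have hH₃ : ∀ k, IsThinSet (Cm p) (H₃ k) := fun k => hG _ _
  have hsub₃ : ∀ k, v '' H364.critSet (n := p) (p := p) v ∪ v '' (H₁ k ∪ (H' k ∪ K₁ k)) ⊆
      ⋃ m, H₃ m := by
    intro k y hy
    obtain ⟨j, hj⟩ := mem_iUnion.1 (hGs k hy)
    refine mem_iUnion.2 ⟨Nat.pair k j, ?_⟩
    simp only [hH₃d, Nat.unpair_pair]
    exact hj
  refine ⟨fun k => H₃ k ∪ Kf k, fun k => H64.Thin.IsThinSet.union (hH₃ k) (hKf k),
    fun y hy F _ _ i hi hinj => ?_⟩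
  have hyS : y ∉ Sf := by
    intro h1
    obtain ⟨k, hk⟩ := mem_iUnion.1 (hsubf h1)
    exact hy k (Or.inr hk)
  have hyv : ∀ k, y ∉ v '' H364.critSet (n := p) (p := p) v ∪ v '' (H₁ k ∪ (H' k ∪ K₁ k)) := by
    intro k h1
    obtain ⟨m, hm⟩ := mem_iUnion.1 (hsub₃ k h1)
    exact hy m (Or.inl hm)
  have : CompactSpace F := hi.compact
  have : ConnectedSpace F := hi.connected
  have : Nonempty F := hi.connected.toNonempty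
  have : IsManifold 𝓘(ℂ, Cm d) ω F := hi.manifold
  obtain ⟨V, hVo, ⟨t, ht⟩, hV⟩ := exists_dat (p := p) hi.hol hΔ.1
  obtain ⟨z₀, hz₀⟩ := hus (i t)
  set y₁ : Y₁ := f₁ z₀ with hy₁
  have hvy : v y₁ = y := by rw [hy₁, ← hcomm, hz₀, hi.fibre]
  have hy₁N : ∀ k, y₁ ∉ H₁ k ∪ (H' k ∪ K₁ k) := fun k hk => hyv k (Or.inr ⟨y₁, hk, hvy⟩)
  have hy₁S : y₁ ∉ S₁ := by
    intro h1
    obtain ⟨k, hk⟩ := mem_iUnion.1 (hsub₁ h1)
    exact hy₁N k (Or.inr (Or.inr hk))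
  have hdetv : (dM (Cm p) (Cm p) v y₁).det ≠ 0 :=
    H308.Bir.det_ne_of_bij (bij_of (by rw [hvy]; exact fun h1 => hyv 0 (Or.inl h1)))
  have hn : Module.finrank ℂ (Cm (p + d)) =
      Module.finrank ℂ (Cm p) + Module.finrank ℂ (Cm d) := by
    simp only [Module.finrank_fin_fun]
  have hfsub : ∀ x, f x = y → Function.Surjective
      (mfderiv 𝓘(ℂ, Cm (p + d)) 𝓘(ℂ, Cm p) f x) := fun x hx =>
    hPf'.submersive x (by rw [hx]; exact hyS)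
  have hfsub₁ : ∀ x, f₁ x = y₁ → Function.Surjective
      (mfderiv 𝓘(ℂ, Cm (p + d)) 𝓘(ℂ, Cm p) f₁ x) := fun x hx =>
    hP₁'.submersive x (by rw [hx]; exact hy₁S)
  have hsur : ∀ x, f x = y → ∃ t, i t = x := fun x hx =>
    surj_fib hn h.hol hi.hol hfsub hi.immersion hi.fibre (h.fibres y).isPreconnected hx
  -- the fibre of `f₁`
  obtain ⟨cs, hman, hval, hvimm⟩ := exists_level (E₀ := Cm d) hn h₁.hol hfsub₁
  have hcomp : CompactSpace (f₁ ⁻¹' {y₁}) :=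
    isCompact_iff_compactSpace.1 (isClosed_singleton.preimage h₁.hol.continuous).isCompact
  have hconn : ConnectedSpace (f₁ ⁻¹' {y₁}) := isConnected_iff_connectedSpace.1 (h₁.fibres y₁)
  have hfib₁ : H511.Surf.IsFibre (Cm (p + d)) (Cm d) f₁ y₁ (Subtype.val : f₁ ⁻¹' {y₁} → X₁) :=
    ⟨hcomp, hconn, hman, hval, hvimm, fun t => t.2⟩
  refine ⟨y₁, f₁ ⁻¹' {y₁}, inferInstance, inferInstance, cs, Subtype.val,
    fun k hk => hy₁N k (Or.inl hk), hfib₁, Subtype.val_injective, ?_⟩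
  rcases hV with hV | ⟨j, hD, hle⟩
  · rw [hV]
    exact bot_le
  refine hle.trans ?_
  have huval : ContMDiff 𝓘(ℂ, Cm d) 𝓘(ℂ, Cm (p + d)) ω
      (fun s : f₁ ⁻¹' {y₁} => u s.1) := hu'.comp hval
  obtain ⟨ν, hiν, hν⟩ := exists_map hn h.hol hi.hol hfsub hi.immersion hi.fibre hinj hsur huval
    (fun s => by
      have h4 : f₁ s.1 = y₁ := s.2
      show f (u s.1) = y
      rw [hcomm, h4, hvy])
  -- general points
  have hpos : ∀ W : Set (f₁ ⁻¹' {y₁}), IsOpen W → W.Nonempty → ∃ s ∈ W,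
      ∀ k, s.1 ∉ ⋃₀ {D | Δ₁ D ≠ 0} ∪ (u ⁻¹' (⋃₀ {D | Δ D ≠ 0}) ∪ u ⁻¹' (L k)) := by
    rintro W hW ⟨s₀, hs₀⟩
    obtain ⟨U, hU, rfl⟩ := isOpen_induced_iff.1 hW
    obtain ⟨z, hzU, hz, hzk⟩ := hgenp y₁ hy₁S (fun k hk => hy₁N k (Or.inr (Or.inl hk))) U hU s₀.1
      hs₀ s₀.2
    exact ⟨⟨z, hz⟩, hzU, hzk⟩
  obtain ⟨Jac, hJ0, hJ, -⟩ := exists_Jac h.hol hi.hol hi.fibre (fun t => hfsub _ (hi.fibre t))
    hi.immersion
  obtain ⟨Jac₁, hJ0₁, hJ₁, -⟩ := exists_Jac (y := y₁) h₁.hol hval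
    (fun t : f₁ ⁻¹' {y₁} => t.2) (fun t => hfsub₁ _ t.2) hvimm
  -- the general point over `V`
  have hνt : ν ⟨z₀, rfl⟩ = t := hinj ((hiν ⟨z₀, rfl⟩).trans hz₀)
  obtain ⟨s, hsW, hsk⟩ := hpos (ν ⁻¹' V) (hVo.preimage hν.continuous)
    ⟨⟨z₀, rfl⟩, by show ν ⟨z₀, rfl⟩ ∈ V; rw [hνt]; exact ht⟩
  have h5 : u s.1 ∉ u '' H364.critSet (n := p + d) (p := p + d) u := by
    intro h2
    obtain ⟨k, hk⟩ := mem_iUnion.1 (hLsub h2)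
    exact hsk k (Or.inr (Or.inr hk))
  have h6 : (dM (Cm (p + d)) (Cm (p + d)) u s.1).det ≠ 0 := H308.Bir.det_ne_of_bij (bij_of h5)
  have h7 := det_rel (F₁ := f₁ ⁻¹' {y₁}) h.hol h₁.hol hu' hv' hi.hol hval hν hcomm hiν
    (fun s => s.2) (fun s => hfsub₁ _ s.2) hJ hJ₁ s
  refine kodR_pull_at (F₁ := f₁ ⁻¹' {y₁}) H413.TZ.genPart h.hol h₁.hol hu' hv' hi.hol hval hν hcomm
    hiν hi.fibre (fun s => s.2) (fun t => hfsub _ (hi.fibre t)) (fun s => hfsub₁ _ s.2) hi.immersion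
    hvimm hinj hdetv hΔ hΔ₁ hmor ?_ ?_ hD hsW ?_ (fun D hD hzD => hsk 0 (Or.inr (Or.inl ⟨D, hD, hzD⟩)))
    (fun D hD hzD => hsk 0 (Or.inl ⟨D, hD, hzD⟩))
  · -- density in `X₁`
    refine (H64.Thin.IsThinSet.dense_compl (thin_pre hu' hexu hA)).mono ?_
    rintro z hz ⟨D, hD, hzD⟩
    exact hz ⟨D, hD, hzD⟩
  · rw [dense_iff_inter_open]
    intro W hW hWne
    obtain ⟨s, hsW, hsk⟩ := hpos W hW hWne
    refine ⟨s, hsW, ?_⟩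
    rintro ⟨D, hD, hzD⟩
    exact hsk 0 (Or.inr (Or.inl ⟨D, hD, hzD⟩))
  · intro h0
    rw [h0, mul_zero] at h7
    exact mul_ne_zero h6 (hJ0₁ s) h7

end Vale.Agent.P281.H495.DC
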