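import Vale.Agent.P281.H303.R.Fin
import Vale.Agent.P281.H364.MM.Base
import Vale.Agent.P281.H364.MM.Kod
import Vale.Agent.P281.H303.X.Base
import Vale.Agent.P281.H495.Cov.Base
import Vale.Agent.P281.H413.MFS.DensM
import Vale.Agent.P281.H740.TW.TowerQ1

/-!
# P281, T-DC (helper495): `kodF f ≤ kodF f₁` for a square `f ∘ u = v ∘ f₁` with `u`, `v` onto

The proofs follow `H303/R/Fin` (helper303) and `H364/MM/Base2` (helper364).
-/

open scoped Manifold ContDiff Topology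
open Set Filter Metric Vale.Agent.P281 Vale.Agent.P272.K
open Vale.Agent.P281.MF Vale.Agent.P281.ISO Vale.Agent.P281.ELL Vale.Agent.P281.H713

set_option linter.all false

noncomputable section

namespace Vale.Agent.P281.H495.DC

open Vale.Agent.P281.H495.Cov (IsOnto exists_sub)

section Pull

open Vale.Agent.P281.H713.TZ Vale.Agent.P281.H713.SA Vale.Agent.P281.H713.CO
open Vale.Agent.P281.H498 (tT_coord PoleAt)

/-- **`kodF f Δ ≤ kodF (f ∘ u) Δ₁`** -/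
theorem kodF_pull {n p : ℕ} {X X₁ Y : Type} [TopologicalSpace X] [ChartedSpace (Cm n) X]
    [TopologicalSpace X₁] [ChartedSpace (Cm n) X₁] [TopologicalSpace Y] [ChartedSpace (Cm p) Y]
    {f : X → Y} {Δ : Set X → ℝ} {u : X₁ → X} {Δ₁ : Set X₁ → ℝ}
    (h : IsOnto n p f Δ) (hu : IsOnto n n u Δ₁) (hfu : IsOnto n p (fun z => f (u z)) Δ₁)
    (hor : TZ.S.OrbMor (Cm n) (Cm n) u Δ₁ Δ) :
    TZ.S.kodF n p Δ (id : X → X) f ≤ TZ.S.kodF n p Δ₁ (id : X₁ → X₁) (fun z => f (u z)) := by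
  classical
  have hsub := exists_sub h
  have hsubu := exists_sub hu
  have hsub₁ := exists_sub hfu
  have hf₁ := hfu.hol
  have huc := hu.hol
  have hΔ₁ := hu.snc
  obtain ⟨⟨_, _⟩, _, _, ⟨_, _⟩, hf, hon, hΔ⟩ := h
  have : IsManifold 𝓘(ℂ, Cm n) ω X₁ := hu.manifold.1
  have : ConnectedSpace X₁ := hu.connected
  rw [TZ.S.kodF_eq, TZ.S.kodF_eq]
  unfold TL.kodF
  refine iSup₂_le fun l hl => ?_
  obtain ⟨m, K, 𝒢, σ, y, hm, hK, h𝒢f, h𝒢p, hpull, hy, h0, hsurj⟩ := hl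
  have hcl𝒢 : IsClosed (⋃₀ 𝒢) := by
    rw [sUnion_eq_biUnion]
    exact h𝒢f.isClosed_biUnion fun G hG => (h𝒢p G hG).1
  have hclΔ : IsClosed (⋃₀ {D | Δ D ≠ 0}) := by
    rw [sUnion_eq_biUnion]
    exact hΔ.1.isClosed_biUnion fun D hD => (hΔ.2.1 D hD).1
  have hd1 := H949.TL.dense_of_sub hf hsub h𝒢f h𝒢p
  have hd2 := H949.TL.dense_of_sub (f := (id : X → X)) contMDiff_id
    (by
      obtain ⟨x⟩ := (inferInstance : Nonempty X)
      refine ⟨x, ?_⟩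
      rw [mfderiv_id]
      exact Function.surjective_id) hΔ.1 (fun D hD => hΔ.2.1 D hD)
  have hd3 := H949.TL.dense_of_sub hf₁ hsub₁ h𝒢f h𝒢p
  have hd4 := H949.TL.dense_of_sub huc hsubu hΔ.1 (fun D hD => hΔ.2.1 D hD)
  have hd : Dense {x | (∀ G ∈ 𝒢, f x ∉ G) ∧ ∀ D, Δ D ≠ 0 → x ∉ D} := by
    refine (hd1.inter_of_isOpen_right hd2 (hclΔ.isOpen_compl)).mono ?_
    rintro x ⟨hx1, hx2⟩
    exact ⟨fun G hG h => hx1 ⟨G, hG, h⟩, fun D hD h => hx2 ⟨D, hD, h⟩⟩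
  have hd₁ : Dense {z | (∀ G ∈ 𝒢, f (u z) ∉ G) ∧ ∀ D, Δ D ≠ 0 → u z ∉ D} := by
    refine (hd3.inter_of_isOpen_right hd4
      (hclΔ.isOpen_compl.preimage huc.continuous)).mono ?_
    rintro x ⟨hx1, hx2⟩
    exact ⟨fun G hG h => hx1 ⟨G, hG, h⟩, fun D hD h => hx2 ⟨D, hD, h⟩⟩
  have hΔ₁0 : ∀ D, 0 ≤ Δ₁ D := fun D => by
    obtain ⟨q, hq, h0, -⟩ := hΔ₁.2.2.1 D
    rw [hq]
    exact_mod_cast h0
  exact le_iSup₂_of_le l ⟨m, fun D => ⌊(m : ℝ) * Δ₁ D⌋₊, 𝒢, σ, y, hm,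
    fun D => Nat.floor_le (mul_nonneg (Nat.cast_nonneg _) (hΔ₁0 D)), h𝒢f, h𝒢p,
    fun b => H303.R.pull_section (fun z => huc z) (fun x => hf x) h𝒢f (fun G hG => h𝒢p G hG) hm hΔ hΔ₁
      hor hK hd hd₁ (hpull b), hy, h0, hsurj⟩ le_rfl

end Pull

section Base

open Vale.Agent.P281.H64.Gen
open Vale.Agent.P281.H308.Bir Vale.Agent.P281.H713.SA
open Vale.Agent.P281.H713.TZ (KodFGE isSection_mono)
open Vale.Agent.P281.H64.Thin (IsThinSet)

variable {n p : ℕ} {X Z Y : Type} [TopologicalSpace X] [ChartedSpace (Cm n) X]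
  [TopologicalSpace Z] [ChartedSpace (Cm p) Z] [TopologicalSpace Y] [ChartedSpace (Cm p) Y]
  {g : X → Z} {h : Z → Y}

/-- **`kodF (h ∘ g) ≤ kodF g`** for `h` onto, `dim Z = dim Y` -/
theorem kodF_base {Δ : Set X → ℝ} (hg : IsOnto n p g Δ) {Γ : Set Z → ℝ} (hh : IsOnto p p h Γ)
    (hb : {G | TZ.S.base (Cm n) (Cm p) g Δ G ≠ 0}.Finite) :
    TZ.S.kodF n p Δ (id : X → X) (fun x => h (g x)) ≤ TZ.S.kodF n p Δ (id : X → X) g := by
  classical
  have hsubh := exists_sub hh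
  have : T2Space X := hg.hausdorff.1
  have : T2Space Z := hg.hausdorff.2
  have : CompactSpace X := hg.compact
  have : ConnectedSpace X := hg.connected
  have : IsManifold 𝓘(ℂ, Cm n) ω X := hg.manifold.1
  have : IsManifold 𝓘(ℂ, Cm p) ω Z := hg.manifold.2
  have : IsManifold 𝓘(ℂ, Cm p) ω Y := hh.manifold.2
  have : T2Space Y := hh.hausdorff.2
  have hgs : Function.Surjective g := hg.onto
  have : CompactSpace Z := hgs.compactSpace hg.hol.continuous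
  have : ConnectedSpace Z := hgs.connectedSpace hg.hol.continuous
  have : CompactSpace Y := hh.onto.compactSpace hh.hol.continuous
  have : ConnectedSpace Y := hh.onto.connectedSpace hh.hol.continuous
  rw [TZ.S.kodF_eq, TZ.S.kodF_eq]
  refine iSup₂_le fun l hl => ?_
  obtain ⟨m, K, 𝒢, s, y₁, hm, hK, h𝒢f, h𝒢p, hpull, hy₁, ht0, hsurj⟩ := hl
  have hy₀ : y₁ ∉ ⋃₀ 𝒢 := fun ⟨G, hG, hyG⟩ => hy₁ G hG hyG
  have hps := fun b => H364.MM.pull_sec H303.Gen.irr H969.Gen.fin hg.hol hgs hh.hol hh.onto hg.snc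
    hb hK h𝒢f h𝒢p hy₀ (hpull b)
  have hfin := (hps 0).1
  have hprG := (hps 0).2.1
  -- the sections on `Y`
  choose kb hkb hkbs using fun b : Fin (l + 1) => (hpull b).mero
  set k : Set Y → ℕ := fun G => ∑ b, kb b G with hkd
  have hkG : ∀ G, k G ≠ 0 → G ∈ 𝒢 := by
    intro G hG
    obtain ⟨b, -, hb⟩ := Finset.exists_ne_zero_of_sum_ne_zero hG
    exact hkb b G hb
  have hkfin : {G | k G ≠ 0}.Finite := h𝒢f.subset fun G hG => hkG G hG
  have h𝒢p' : ∀ G ∈ 𝒢, IsPrimeDivisor (Cm p) G := fun G hG => h𝒢p G hG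
  set t : Fin (l + 1) → Y → ℂ := fun b => s b with htd
  have ht : ∀ b, IsSection (Cm p) (fun (D : Set Y) z g => IsLocalEq (Cm p) D g z) m k (t b) :=
    fun b => isSection_mono (fun D => Finset.single_le_sum (f := fun b => kb b D)
      (fun _ _ => Nat.zero_le _) (Finset.mem_univ b)) hkfin (fun G hG => h𝒢p' G (hkG G hG))
      (hkbs b)
  have hind : LinearIndependent ℂ (fun b : Fin l =>
      dif (Cm p) (fun w => t b.succ w / t 0 w) y₁) :=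
    JB.linearIndependent_of_surjective hsurj
  have hoffY : ∀ y, (∀ G ∈ 𝒢, y ∉ G) → ∀ G, k G ≠ 0 →
      ∃ g, IsLocalEq (Cm p) G g y ∧ g y ≠ 0 := by
    intro y hy G hG
    obtain ⟨g, hg⟩ := (h𝒢p' G (hkG G hG)).2.1 y
    exact ⟨g, hg, fun h0 => hy G (hkG G hG) ((show IsLocalEq (Cm p) G g y from hg).mem_iff.2 h0)⟩
  obtain ⟨y₂, hy₂⟩ := good_point ht (hoffY y₁ hy₁) ht0 hind
  obtain ⟨V, hV, hVo, hyV⟩ := eventually_nhds_iff.1 hy₂
  -- a general point of `Z`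
  have hthin := H64.Thin.isThinSet_sUnion hfin hprG
  have hScl : IsClosed (⋃₀ H364.MM.pullG n p g Δ h 𝒢) := by
    rw [sUnion_eq_biUnion]
    exact hfin.isClosed_biUnion fun G hG => (hprG G hG).1
  have hSd : Dense (⋃₀ H364.MM.pullG n p g Δ h 𝒢)ᶜ := (IsSmallSet.of_thin hthin).dense_compl
  have hgood := H413.MFS.dense_goodZ H511.Gen.isBigOpen_id hh.hol hsubh h𝒢f h𝒢p' hkG (ht 0)
    ⟨y₁, hy₁, ht0⟩ hScl.isOpen_compl hSd (D := univ) dense_univ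
  obtain ⟨z, hzV, hz1, -, -, hzG, -⟩ := hgood.inter_open_nonempty (h ⁻¹' V)
    (hVo.preimage hh.hol.continuous) (by
      obtain ⟨z, hz⟩ := hh.onto y₂
      exact ⟨z, by rw [mem_preimage, hz]; exact hyV⟩)
  obtain ⟨hg1, hg2, hg3, hg4⟩ := hV (h z) hzV
  have hinj : Function.Injective (dM (Cm p) (Cm p) h z) :=
    (LinearMap.injective_iff_surjective (V := Cm p)
      (f := ((dM (Cm p) (Cm p) h z : Cm p →L[ℂ] Cm p) : Cm p →ₗ[ℂ] Cm p))).2 hz1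
  have hzd : (dM (Cm p) (Cm p) h z).det ≠ 0 := det_ne_of_bij ⟨hinj, hz1⟩
  have hdet : ∀ᶠ w in 𝓝 z, (dM (Cm p) (Cm p) h w).det ≠ 0 := H364.MM.det_ev hh.hol hzd
  have hratio : ∀ b : ℕ, ∀ᶠ w in 𝓝 z,
      (s b (h w) * (dM (Cm p) (Cm p) h w).det ^ m) / (s 0 (h w) *
        (dM (Cm p) (Cm p) h w).det ^ m) = s b (h w) / s 0 (h w) := by
    intro b
    filter_upwards [hdet] with w hw
    rw [mul_div_mul_right _ _ (pow_ne_zero _ hw)]
  refine le_iSup₂_of_le l ⟨m, K, H364.MM.pullG n p g Δ h 𝒢,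
    fun b z => s b (h z) * (dM (Cm p) (Cm p) h z).det ^ m, z, hm, hK, hfin, hprG,
    fun b => (hps b).2.2, fun G hG hz => hzG ⟨G, hG, hz⟩, ?_, ?_⟩ le_rfl
  · exact mul_ne_zero hg1 (pow_ne_zero _ hzd)
  · have hli : LinearIndependent ℂ fun b : Fin l =>
        dif (Cm p) (fun w => (s (b + 1) (h w) * (dM (Cm p) (Cm p) h w).det ^ m) /
          (s 0 (h w) * (dM (Cm p) (Cm p) h w).det ^ m)) z := by
      have hcomp : (fun b : Fin l =>
          dif (Cm p) (fun w => (s (b + 1) (h w) * (dM (Cm p) (Cm p) h w).det ^ m) /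
          (s 0 (h w) * (dM (Cm p) (Cm p) h w).det ^ m)) z) =
          fun b : Fin l => (dif (Cm p) (fun w => t b.succ w / t 0 w) (h z)).comp
            (dM (Cm p) (Cm p) h z) := by
        funext b
        rw [← dif_comp (hg3 b) (hh.hol z)]
        refine dV_congr ?_
        filter_upwards [hratio (b + 1)] with w hw
        rw [hw]
        simp [htd]
      rw [hcomp, linearIndependent_precomp hz1]
      exact hg4
    exact JB.surjective_of_linearIndependent hli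

end Base

/-- **the squares**: `kodF f Δ ≤ kodF f₁ Δ₁` -/
theorem kodF_up {n p : ℕ} {X Y X₁ Y₁ : Type} [TopologicalSpace X] [ChartedSpace (Cm n) X]
    [TopologicalSpace Y] [ChartedSpace (Cm p) Y] [TopologicalSpace X₁] [ChartedSpace (Cm n) X₁]
    [TopologicalSpace Y₁] [ChartedSpace (Cm p) Y₁] {f : X → Y} {Δ : Set X → ℝ} {f₁ : X₁ → Y₁}
    {Δ₁ : Set X₁ → ℝ} {u : X₁ → X} {v : Y₁ → Y} (h : IsOnto n p f Δ)
    (h₁ : H511.Surf.IsFibration (Cm n) (Cm p) f₁ Δ₁)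
    (hu : ContMDiff 𝓘(ℂ, Cm n) 𝓘(ℂ, Cm n) ω u) (hus : Function.Surjective u)
    (hv : ContMDiff 𝓘(ℂ, Cm p) 𝓘(ℂ, Cm p) ω v) (hcomm : ∀ x, f (u x) = v (f₁ x))
    (hor : TZ.S.OrbMor (Cm n) (Cm n) u Δ₁ Δ) :
    TZ.S.kodF n p Δ (id : X → X) f ≤ TZ.S.kodF n p Δ₁ (id : X₁ → X₁) f₁ := by
  have ho₁ := Cov.of_fib h₁
  have huo : IsOnto n n u Δ₁ := ⟨⟨ho₁.hausdorff.1, h.hausdorff.1⟩, ho₁.compact, ho₁.connected,
    ⟨ho₁.manifold.1, h.manifold.1⟩, hu, hus, ho₁.snc⟩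
  have hfu : IsOnto n p (fun z => f (u z)) Δ₁ := ⟨⟨ho₁.hausdorff.1, h.hausdorff.2⟩, ho₁.compact,
    ho₁.connected, ⟨ho₁.manifold.1, h.manifold.2⟩, h.hol.comp hu, h.onto.comp hus, ho₁.snc⟩
  have hfun : (fun x => f (u x)) = fun x => v (f₁ x) := funext hcomm
  have hvs : Function.Surjective v := by
    intro y
    obtain ⟨x, hx⟩ := hfu.onto y
    exact ⟨f₁ x, by rw [← hcomm]; exact hx⟩
  have : T2Space X₁ := h₁.hausdorff.1
  have : T2Space Y₁ := h₁.hausdorff.2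
  have : CompactSpace X₁ := h₁.compact
  have : ConnectedSpace X₁ := h₁.connected
  have : IsManifold 𝓘(ℂ, Cm n) ω X₁ := h₁.manifold.1
  have : IsManifold 𝓘(ℂ, Cm p) ω Y₁ := h₁.manifold.2
  have : CompactSpace Y₁ := ho₁.onto.compactSpace ho₁.hol.continuous
  have : ConnectedSpace Y₁ := ho₁.onto.connectedSpace ho₁.hol.continuous
  have hb := (H303.X.bdry H303.Gen.irr H969.Gen.fin (H364.crit H150.Gen.img) H383.Gen.compl h₁.hol
    h₁.fibres h₁.snc).1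
  have hvo : IsOnto p p v (fun _ => 0) := ⟨⟨ho₁.hausdorff.2, h.hausdorff.2⟩, inferInstance,
    inferInstance, ⟨ho₁.manifold.2, h.manifold.2⟩, hv, hvs, H740.isSNC_zero⟩
  have h3 := kodF_pull h huo hfu hor
  rw [hfun] at h3
  exact h3.trans (kodF_base ho₁ hvo hb)

end Vale.Agent.P281.H495.DC
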