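import Vale.Agent.P281.H495.DC.Kod
import Vale.Agent.P281.H495.DC.Up

/-!
# P281, T-DC (helper495): generically finite squares, all in one
-/

open Set Filter
open Vale.Agent.P281 Vale.Agent.P281.H713
open scoped Manifold ContDiff Topology

noncomputable section

namespace Vale.Agent.P281.H495.DC

/-- a continuous map which pulls back germs of holomorphic functions is holomorphic -/
theorem contMDiff_of {n m : ℕ} {X Z : Type} [TopologicalSpace X] [ChartedSpace (TZ.S.Cm n) X]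
    [TopologicalSpace Z] [ChartedSpace (TZ.S.Cm m) Z] [IsManifold 𝓘(ℂ, TZ.S.Cm m) ω Z] {g : X → Z}
    (hg : Continuous g ∧
      ∀ x φ, J.HolAt (TZ.S.Cm m) φ (g x) → J.HolAt (TZ.S.Cm n) (fun z => φ (g z)) x) :
    ContMDiff 𝓘(ℂ, TZ.S.Cm n) 𝓘(ℂ, TZ.S.Cm m) ω g := by
  intro x
  rw [contMDiffAt_iff_target]
  refine ⟨hg.1.continuousAt, ?_⟩
  have h1 : ContMDiffAt 𝓘(ℂ, TZ.S.Cm m) 𝓘(ℂ, TZ.S.Cm m) ω
      (extChartAt 𝓘(ℂ, TZ.S.Cm m) (g x)) (g x) := contMDiffAt_extChartAt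
  rw [contMDiffAt_pi_space] at h1 ⊢
  exact fun j => hg.2 x (fun z => extChartAt 𝓘(ℂ, TZ.S.Cm m) (g x) z j) (h1 j)

/-- **T-DC**: a square `f ∘ u = v ∘ f₁`, `u` and `v` holomorphic, `u` onto, `dim X₁ = dim X`,
`dim Y₁ = dim Y`, `u` is a morphism of orbifolds in codimension one, and
`K_X₁ + Δ₁ ≤ u^*(K_X + Δ)` off an analytic subset `B` of `X` of codimension two. Then
`κ(X₁, K + Δ₁) ≤ κ(X, K + Δ)` and `k(f) ≤ k(f₁)`. -/
theorem desc_all {n p : ℕ} {X Y X₁ Y₁ : Type} [TopologicalSpace X] [ChartedSpace (TZ.S.Cm n) X]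
    [TopologicalSpace Y] [ChartedSpace (TZ.S.Cm p) Y] [TopologicalSpace X₁]
    [ChartedSpace (TZ.S.Cm n) X₁] [TopologicalSpace Y₁] [ChartedSpace (TZ.S.Cm p) Y₁] {f : X → Y}
    {f₁ : X₁ → Y₁} {Δ : Set X → ℝ} {Δ₁ : Set X₁ → ℝ} (hn : 0 < n)
    (hf : H511.Surf.IsFibration (TZ.S.Cm n) (TZ.S.Cm p) f Δ)
    (hf₁ : H511.Surf.IsFibration (TZ.S.Cm n) (TZ.S.Cm p) f₁ Δ₁)
    {u : X₁ → X} {v : Y₁ → Y} {B : Set X} (hu : Continuous u ∧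
      ∀ x φ, J.HolAt (TZ.S.Cm n) φ (u x) → J.HolAt (TZ.S.Cm n) (fun z => φ (u z)) x)
    (hv : Continuous v ∧
      ∀ x φ, J.HolAt (TZ.S.Cm p) φ (v x) → J.HolAt (TZ.S.Cm p) (fun z => φ (v z)) x)
    (hc : ∀ x, f (u x) = v (f₁ x)) (hus : Function.Surjective u)
    (ho : TZ.S.OrbMor (TZ.S.Cm n) (TZ.S.Cm n) u Δ₁ Δ)
    (hB : H64.Gen.IsAnalyticSet (TZ.S.Cm n) B ∧ H64.Gen.IsSmall2 (TZ.S.Cm n) B)
    (hle : ∀ x, u x ∉ B → H969.TG.LogLe n u Δ₁ Δ x) :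
    TZ.S.kodX (TZ.S.Cm n) Δ₁ ≤ TZ.S.kodX (TZ.S.Cm n) Δ ∧
      TZ.S.kodF n p Δ (id : X → X) f ≤ TZ.S.kodF n p Δ₁ (id : X₁ → X₁) f₁ := by
  have : T2Space X := hf.hausdorff.1
  have : CompactSpace X := hf.compact
  have : ConnectedSpace X := hf.connected
  have : IsManifold 𝓘(ℂ, TZ.S.Cm n) ω X := hf.manifold.1
  have : IsManifold 𝓘(ℂ, TZ.S.Cm p) ω Y := hf.manifold.2
  have : T2Space X₁ := hf₁.hausdorff.1
  have : CompactSpace X₁ := hf₁.compact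
  have : ConnectedSpace X₁ := hf₁.connected
  have : IsManifold 𝓘(ℂ, TZ.S.Cm n) ω X₁ := hf₁.manifold.1
  have hu' := contMDiff_of hu
  have hv' := contMDiff_of hv
  exact ⟨kod_desc hn hu' hus hf₁.snc hf.snc hB.2 hB.1 hle,
    kodF_up (Cov.of_fib hf) hf₁ hu' hus hv' hc ho⟩

end Vale.Agent.P281.H495.DC
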