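import Vale.Agent.P281.H495.DC.Abs

/-!
# P281, T-DC (helper495): `κ(X₁, K + Δ₁) ≤ κ(X, K + Δ)`
-/

open scoped Manifold ContDiff Topology
open Set Filter Metric Module

noncomputable section

namespace Vale.Agent.P281.H495.DC

open Vale.Agent.P281 Vale.Agent.P281.MF Vale.Agent.P281.ISO
open Vale.Agent.P281.H713 Vale.Agent.P281.H969.TL Vale.Agent.P281.H969.TG Vale.Agent.P281.H969.TGB
open Vale.Agent.P281.H64.TU (Tame KTame TameOK RelFormT HasFormsT)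
open Vale.Agent.P281.H64.Gen (IsSmallSet IsSmall2 IsAnalyticSet)
open Vale.Agent.P272.K (Chart IsHermitian Cm At)

set_option linter.all false

theorem sec_at {n : ℕ} {X : Type} [TopologicalSpace X] [ChartedSpace (Cm n) X]
    [IsManifold 𝓘(ℂ, Cm n) ω X] {m : ℕ} {k : Set X → ℕ} {s : X → ℂ}
    (hs : J.IsSection (Cm n) (fun (D : Set X) x g => IsLocalEq (Cm n) D g x) m k s) {z : X}
    (hz : ∀ D, k D ≠ 0 → z ∉ D) : ∃ b : X → ℂ, HolV (Cm n) b z ∧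
      ∀ᶠ w in 𝓝 z, s w = b w * jac (Cm n) (chartAt (Cm n) z) w ^ m := by
  obtain ⟨T, g, a, hT, hg, ha, hev⟩ := hs z
  have hP : HolV (Cm n) (fun w => ∏ D ∈ T, g D w ^ k D) z :=
    HolV.prod fun D hD => ((hg D hD).holAt).pow _
  have hP0 : ∏ D ∈ T, g D z ^ k D ≠ 0 := by
    refine Finset.prod_ne_zero_iff.2 fun D hD => ?_
    by_cases h0 : k D = 0
    · rw [h0, pow_zero]; exact one_ne_zero
    · exact pow_ne_zero _ fun h1 => hz D h0 ((hg D hD).mem_iff.2 h1)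
  refine ⟨fun w => a w / ∏ D ∈ T, g D w ^ k D, HolV.div ha hP hP0, ?_⟩
  filter_upwards [hev, hP.continuousAt.eventually_ne hP0] with w h1 h2
  have h3 : s w * ∏ D ∈ T, g D w ^ k D = a w * jac (Cm n) (chartAt (Cm n) z) w ^ m := h1 h2
  rw [div_mul_eq_mul_div, eq_div_iff h2]
  exact h3

theorem surj_of_ind {E : Type} [NormedAddCommGroup E] [NormedSpace ℂ E] {j : ℕ}
    (L : Fin j → E →L[ℂ] ℂ) (h : ∀ c : Fin j → ℂ, (∀ ξ, ∑ b, c b * L b ξ = 0) → ∀ b, c b = 0) :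
    Function.Surjective fun (ξ : E) (b : Fin j) => L b ξ := by
  let M : E →ₗ[ℂ] (Fin j → ℂ) := LinearMap.pi fun b => (L b : E →ₗ[ℂ] ℂ)
  have h1 : LinearMap.range M = ⊤ := by
    by_contra hne
    obtain ⟨φ, hφ, hle⟩ := Submodule.exists_le_ker_of_lt_top _ (lt_top_iff_ne_top.2 hne)
    refine hφ (LinearMap.ext fun v => ?_)
    have hc : ∀ b, φ (Pi.single b 1) = 0 := by
      refine h (fun b => φ (Pi.single b 1)) fun ξ => ?_
      have h2 : φ (M ξ) = 0 := hle ⟨ξ, rfl⟩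
      rw [LinearMap.pi_apply_eq_sum_univ φ (M ξ)] at h2
      rw [← h2]
      refine Finset.sum_congr rfl fun b _ => ?_
      have h3 : (fun i => if b = i then (1 : ℂ) else 0) = Pi.single b 1 := by
        funext i
        simp [Pi.single_apply, eq_comm]
      rw [h3, smul_eq_mul, mul_comm]
      rfl
    rw [LinearMap.pi_apply_eq_sum_univ φ v]
    refine Finset.sum_eq_zero fun b _ => ?_
    have h3 : (fun i => if b = i then (1 : ℂ) else 0) = Pi.single b 1 := by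
      funext i
      simp [Pi.single_apply, eq_comm]
    rw [h3, hc, smul_zero]
  exact LinearMap.range_eq_top.1 h1

theorem small_empty {n : ℕ} {Y : Type} [TopologicalSpace Y] [ChartedSpace (Cm n) Y] :
    IsSmallSet (Cm n) (∅ : Set Y) := by
  refine ⟨isClosed_empty, fun _ => ∅, fun _ => ⟨isClosed_empty, fun y => ⟨fun _ => 1,
    contMDiffAt_const, fun h => ?_, Filter.Eventually.of_forall fun z hz => hz.elim⟩⟩,
    empty_subset _⟩
  exact one_ne_zero h.self_of_nhds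

section
variable {d : ℕ} {X₁ X : Type} [TopologicalSpace X₁] [T2Space X₁] [CompactSpace X₁]
  [ConnectedSpace X₁] [ChartedSpace (Cm (0 + d)) X₁] [IsManifold 𝓘(ℂ, Cm (0 + d)) ω X₁]
  [TopologicalSpace X] [T2Space X] [CompactSpace X] [ConnectedSpace X]
  [ChartedSpace (Cm (0 + d)) X] [IsManifold 𝓘(ℂ, Cm (0 + d)) ω X] {u : X₁ → X}
  {Δ₁ : Set X₁ → ℝ} {Δ : Set X → ℝ} {B : Set X}

theorem kod_desc0 (hd : 0 < d) (hu : ContMDiff 𝓘(ℂ, Cm (0 + d)) 𝓘(ℂ, Cm (0 + d)) ω u)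
    (hsu : Function.Surjective u) (hΔ₁ : J.IsSNC (Cm (0 + d)) Δ₁) (hΔ : J.IsSNC (Cm (0 + d)) Δ)
    (hB : IsSmall2 (Cm (0 + d)) B) (hBa : IsAnalyticSet (Cm (0 + d)) B)
    (hle : ∀ x₁, u x₁ ∉ B → LogLe (0 + d) u Δ₁ Δ x₁) :
    TZ.S.kodX (Cm (0 + d)) Δ₁ ≤ TZ.S.kodX (Cm (0 + d)) Δ := by
  classical
  refine iSup₂_le fun j hj => ?_
  obtain ⟨m, k, s, z, hm, hk, hs, hoff, hs0, hsurj⟩ := hj
  let e₀ : Cm (0 + d) ≃L[ℂ] (Cm 0 × Cm d) := ContinuousLinearEquiv.ofFinrankEq (by simp)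
  have hsubm : ∀ (Z : Type) [TopologicalSpace Z] [ChartedSpace (Cm (0 + d)) Z] (x : Z),
      Function.Surjective (mfderiv 𝓘(ℂ, Cm (0 + d)) 𝓘(ℂ, Cm 0) (pt Z) x) := fun Z _ _ x y =>
    ⟨0, @Subsingleton.elim (Cm 0) _ _ _⟩
  have hu' : ∀ x, HolM (Cm (0 + d)) (Cm (0 + d)) u x := fun x => hu.contMDiffAt
  have hsq : IsSqB (n := 0 + d) (p := 0) (pt X₁) Δ₁ (pt X) Δ u (id : Cm 0 → Cm 0) ∅ B :=
    { holu := hu
      holv := contMDiff_id
      comm := fun _ => rfl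
      surj := hsu
      small := small_empty
      etale := fun y₁ _ a b _ => @Subsingleton.elim (Cm 0) _ _ _
      small2 := hB
      an := hBa
      le := fun x₁ _ h => hle x₁ h }
  obtain ⟨M, hM⟩ := H176.TGB.cardB H349.TG.sheet (0 + d) 0 X₁ X (Cm 0) u (pt X) ∅ Δ B hu
    contMDiff_const (fun y => ⟨Classical.arbitrary X, Subsingleton.elim _ _⟩) small_empty
    (fun x _ => hsubm X x) hΔ hB
    (fun x₁ _ h1 h2 => inj_of_det (etale_of_le (hu' x₁) hΔ₁ hΔ (hle x₁ h1) h2))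
  have hkz : ∀ D, k D ≠ 0 → z ∉ D := by
    intro D hD hzD
    obtain ⟨g, hg, hgz⟩ := hoff D hD
    exact hgz ((IsLocalEq.mem_iff hg).1 hzD)
  have hF : ∀ y₁ ∉ (∅ : Set (Cm 0)),
      HasFormsD (KTame (w0 (0 + d) X₁)) (pt X₁) ∅ e₀ Δ₁ j y₁ := by
    intro y₁ _
    obtain ⟨b₀, hb₀, hb₀e⟩ := sec_at (hs 0) hkz
    have hb00 : b₀ z ≠ 0 := by
      intro h0
      apply hs0
      rw [hb₀e.self_of_nhds, h0, zero_mul]
    have hjac : ∀ᶠ w in 𝓝 z, jac (Cm (0 + d)) (chartAt (Cm (0 + d)) z) w ≠ 0 :=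
      H76.jac_chart_ev z
    refine ⟨m, ∅, k, s 0, fun b => s (b + 1), hm, by simp, rel_of_section hd (hs 0) e₀,
      fun b => rel_of_section hd (hs (b + 1)) e₀, fun D => (hk D).le, z, Subsingleton.elim _ _,
      ?_, fun b => ?_, fun c hc b₁ => ?_⟩
    · filter_upwards [hb₀e, hb₀.continuousAt.eventually_ne hb00, hjac] with w h1 h2 h3
      rw [h1]
      exact mul_ne_zero h2 (pow_ne_zero _ h3)
    · obtain ⟨b', hb', hb'e⟩ := sec_at (hs (b + 1)) hkz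
      refine (HolV.div hb' hb₀ hb00).congr ?_
      filter_upwards [hb₀e, hb'e, hjac] with w h1 h2 h3
      rw [h1, h2, mul_div_mul_right _ _ (pow_ne_zero _ h3)]
    · obtain ⟨ξ, hξ⟩ := hsurj (Pi.single b₁ 1)
      have h1 := hc ξ (@Subsingleton.elim (Cm 0) _ _ _)
      have h2 : ∀ b : Fin j, dif (Cm (0 + d)) (fun w => s (b + 1) w / s 0 w) z ξ =
          (Pi.single b₁ (1 : ℂ) : Fin j → ℂ) b := fun b => congrFun hξ b
      rw [Finset.sum_congr rfl fun b _ => by rw [h2 b]] at h1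
      simpa [Pi.single_apply] using h1
  have hne : ∀ y ∉ (∅ : Set (Cm 0)), ∀ D, Δ D ≠ 0 → ¬ (pt X) ⁻¹' {y} ⊆ D := by
    intro y _ D hD h
    obtain ⟨x, -, hx⟩ := IsLocalEq.exists_notMem (hΔ.2.1 D hD).2.1 isOpen_univ
      ⟨Classical.arbitrary X, mem_univ _⟩
    exact hx (h (Subsingleton.elim _ _))
  have hneB : ∀ y ∉ (∅ : Set (Cm 0)), ¬ (pt X) ⁻¹' {y} ⊆ B := by
    intro y _ h
    obtain ⟨x, hx⟩ := (IsSmallSet.dense_compl (H485.Gen.IsSmall2.small hB)).nonempty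
    exact hx (h (Subsingleton.elim _ _))
  have hpre : ∀ (Z : Type) [TopologicalSpace Z] [ConnectedSpace Z] (y : Cm 0),
      IsPreconnected ((pt Z) ⁻¹' {y}) := by
    intro Z _ _ y
    have h1 : (pt Z) ⁻¹' {y} = univ := eq_univ_of_forall fun z => Subsingleton.elim _ _
    rw [h1]
    exact isPreconnected_univ
  obtain ⟨N, κ, Θ, Ξ, hN, hΘ, hΞ, hκ, x, -, hΘ0, hr, hxΔ, hind⟩ :=
    descB (H389.TGB.traceB H485.Gen.har) H180.TG.pow H225.TGB.extR hd hsq contMDiff_const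
      contMDiff_const
      (fun y => ⟨Classical.arbitrary X, Subsingleton.elim _ _⟩) hΔ₁ hΔ isClosed_empty
      (Subset.refl _) (fun _ h => h) (fun x _ => hsubm X₁ x) (fun x _ => hsubm X x)
      hne hneB (fun y _ => hpre X y) (fun y _ => hpre X₁ y) hM hF 0 (by simp)
  set σ : ℕ → X → ℂ := fun b => if h : b = 0 then Θ else if h' : b - 1 < j then Ξ ⟨b - 1, h'⟩ else Θ
    with hσ
  have hσ0 : σ 0 = Θ := by simp [hσ]
  have hσb : ∀ b : Fin j, σ (b + 1) = Ξ b := by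
    intro b
    simp [hσ]
  refine le_iSup₂_of_le j ⟨N, κ, σ, x, hN, hκ, fun b => ?_, fun D hD => ?_, ?_, ?_⟩ le_rfl
  · simp only [hσ]
    split_ifs with h1 h2
    · exact section_of_rel hΔ hN hκ hΘ
    · exact section_of_rel hΔ hN hκ (hΞ _)
    · exact section_of_rel hΔ hN hκ hΘ
  · have h0 : Δ D ≠ 0 := by
      intro h3
      have h1 := hκ D
      rw [h3, mul_zero] at h1
      exact hD (by exact_mod_cast h1)
    obtain ⟨g, hg⟩ := (hΔ.2.1 D h0).2.1 x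
    exact ⟨g, hg, fun h1 => hxΔ D h0 ((IsLocalEq.mem_iff hg).2 h1)⟩
  · rw [hσ0]
    exact hΘ0.self_of_nhds
  · have h1 := surj_of_ind (fun b : Fin j => dif (Cm (0 + d)) (fun w => Ξ b w / Θ w) x)
      fun c hc => hind c fun ξ _ => hc ξ
    have h2 : (fun (ξ : Cm (0 + d)) (b : Fin j) =>
        J.dif (Cm (0 + d)) (fun w => σ (b + 1) w / σ 0 w) x ξ) =
        fun ξ b => dif (Cm (0 + d)) (fun w => Ξ b w / Θ w) x ξ := by
      funext ξ b
      rw [hσb, hσ0]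
      rfl
    rw [h2]
    exact h1

end

/-- **T-DC**: `κ(X₁, K + Δ₁) ≤ κ(X, K + Δ)` if `u : X₁ → X` is onto, and `K + Δ₁ ≤ u^*(K + Δ)` off an
analytic set of codimension two of `X` -/
theorem kod_desc {n : ℕ} {X₁ X : Type} [TopologicalSpace X₁] [T2Space X₁] [CompactSpace X₁]
    [ConnectedSpace X₁] [ChartedSpace (Cm n) X₁] [IsManifold 𝓘(ℂ, Cm n) ω X₁]
    [TopologicalSpace X] [T2Space X] [CompactSpace X] [ConnectedSpace X]
    [ChartedSpace (Cm n) X] [IsManifold 𝓘(ℂ, Cm n) ω X] {u : X₁ → X}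
    {Δ₁ : Set X₁ → ℝ} {Δ : Set X → ℝ} {B : Set X} (hn : 0 < n)
    (hu : ContMDiff 𝓘(ℂ, Cm n) 𝓘(ℂ, Cm n) ω u)
    (hsu : Function.Surjective u) (hΔ₁ : J.IsSNC (Cm n) Δ₁) (hΔ : J.IsSNC (Cm n) Δ)
    (hB : IsSmall2 (Cm n) B) (hBa : IsAnalyticSet (Cm n) B)
    (hle : ∀ x₁, u x₁ ∉ B → LogLe n u Δ₁ Δ x₁) :
    TZ.S.kodX (Cm n) Δ₁ ≤ TZ.S.kodX (Cm n) Δ := by
  obtain ⟨d, rfl⟩ : ∃ d, n = 0 + d := ⟨n, (Nat.zero_add n).symm⟩
  exact kod_desc0 (by omega) hu hsu hΔ₁ hΔ hB hBa hle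

end Vale.Agent.P281.H495.DC
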